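import Vale.Agent.P277.Defs
import Vale.Agent.P297Z.Surf.Ord
import Vale.Agent.P277Z.Gr.Defs

/-!
# P277Z: germs of complex manifolds along a compact fibre, with their function field
-/

set_option linter.all false

open scoped Manifold ContDiff Topology ComplexOrder
open Set Filter
open Vale.Agent.P272.K (Cm Chart At cHess)
open Vale.Agent.P297 (Place)
open Vale.Agent.P285.H281.FD (Bd)

noncomputable section

namespace Vale.Agent.P277Z

section mfd

variable {W : Type} [TopologicalSpace W]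

/-- The sets that contain an open dense part of a neighbourhood of `s`. -/
def gen (s : Set W) : Filter W where
  sets := {T | ∃ U, IsOpen U ∧ s ⊆ U ∧ U ⊆ closure (interior T)}
  univ_sets := ⟨univ, isOpen_univ, subset_univ _, by simp⟩
  sets_of_superset := fun ⟨U, h1, h2, h3⟩ h =>
    ⟨U, h1, h2, h3.trans (closure_mono (interior_mono h))⟩
  inter_sets := fun {T T'} ⟨U, h1, h2, h3⟩ ⟨U', k1, k2, k3⟩ =>
    ⟨U ∩ U', h1.inter k1, subset_inter h2 k2, fun x hx => by
      have a : x ∈ closure (U' ∩ interior T) := k1.inter_closure ⟨hx.2, h3 hx.1⟩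
      rw [interior_inter]
      refine closure_minimal (fun y hy => ?_) isClosed_closure a
      exact isOpen_interior.inter_closure ⟨hy.2, k3 hy.1⟩⟩

variable (n : ℕ) [ChartedSpace (Cm n) W]

/-- `a` is holomorphic at `x`. -/
def Hol (a : W → ℂ) (x : W) : Prop :=
  ∀ e : Chart n W, At e x → AnalyticAt ℂ (fun z => a (e.symm z)) (e x)

/-- `a` is meromorphic at `x`. -/
def Mer (a : W → ℂ) (x : W) : Prop :=
  ∃ u v : W → ℂ, Hol n u x ∧ Hol n v x ∧ (¬ ∀ᶠ y in 𝓝 x, v y = 0) ∧ ∀ᶠ y in gen {x}, a y * v y = u y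

/-- `φ` is smooth at `x` and strictly plurisubharmonic there. -/
def Spsh (φ : W → ℝ) (x : W) : Prop :=
  ∀ e : Chart n W, At e x → ContDiffAt ℝ ∞ (fun z => φ (e.symm z)) (e x) ∧
    (cHess (fun z => φ (e.symm z)) (e x)).PosDef

variable {n} in
/-- The Jacobian determinant of `g` in the chart `e`. -/
def jd (g : Fin n → W → ℂ) (e : Chart n W) (y : W) : ℂ :=
  LinearMap.det (fderiv ℂ (fun z i => g i (e.symm z)) (e y) : Cm n →ₗ[ℂ] Cm n)

end mfd

/-- A complex manifold `W` near a compact connected set `F` that is a component of the fibre over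
`0` of the holomorphic map `π`. -/
structure Geo (n N : ℕ) where
  /-- the manifold -/
  W : Type
  [top : TopologicalSpace W]
  [t2 : T2Space W]
  [sc : SecondCountableTopology W]
  [ch : ChartedSpace (Cm n) W]
  [mf : IsManifold 𝓘(ℂ, Cm n) ω W]
  /-- the fibre -/
  F : Set W
  cpt : IsCompact F
  conn : IsConnected F
  /-- the map to the base -/
  π : W → Cm N
  hol : ∀ x ∈ F, ∀ i, Hol n (fun y => π y i) x
  fib : ∀ᶠ y in 𝓝ˢ F, π y = 0 ↔ y ∈ F

attribute [instance] Geo.top Geo.t2 Geo.sc Geo.ch Geo.mf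

/-- `L` is a line bundle near `F`. -/
structure Geo.LB {n N : ℕ} (G : Geo n N) (L : Bd G.W) : Prop where
  isOpen : ∀ i, IsOpen (L.U i)
  cover : ∀ x ∈ G.F, ∃ i, x ∈ L.U i
  holo : ∀ i j x, x ∈ L.U i → x ∈ L.U j → Hol n (L.g i j) x
  ne_zero : ∀ i j x, x ∈ L.U i → x ∈ L.U j → L.g i j x ≠ 0
  cocycle : ∀ i j k x, x ∈ L.U i → x ∈ L.U j → x ∈ L.U k → L.g i j x * L.g j k x = L.g i k x

/-- There is a positive line bundle near `F`. -/
def Geo.Proj {n N : ℕ} (G : Geo n N) : Prop :=
  ∃ (L : Bd G.W) (ψ : L.ι → G.W → ℝ), G.LB L ∧ (∀ i, ∀ x ∈ L.U i, Spsh n (ψ i) x) ∧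
    ∀ i j x, x ∈ L.U i → x ∈ L.U j → ψ i x = ψ j x + Real.log (‖L.g i j x‖ ^ 2)

/-- `K` is the field of the germs of meromorphic functions along `F`. -/
structure Mdl (n N : ℕ) (K : Type) [Field K] [Algebra ℂ K] extends Geo n N where
  /-- the values -/
  val : K → W → ℂ
  val_add : ∀ f g, ∀ᶠ y in gen F, val (f + g) y = val f y + val g y
  val_mul : ∀ f g, ∀ᶠ y in gen F, val (f * g) y = val f y * val g y
  val_const : ∀ c y, val (algebraMap ℂ K c) y = c
  mer : ∀ f, ∀ x ∈ F, Mer n (val f) x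
  can : ∀ f, ∀ᶠ y in 𝓝ˢ F, ∀ a, Hol n a y → (∀ᶠ z in gen {y}, val f z = a z) → val f y = a y
  surj : ∀ a : W → ℂ, (∀ x ∈ F, Mer n a x) → ∃ f, ∀ᶠ y in gen F, val f y = a y

/-- Divisors with real coefficients. -/
abbrev Div (K : Type) [Field K] := Place K →₀ ℝ

/-- The divisor with the coefficients `c`, if they have finite support. -/
def mkDiv {K : Type} [Field K] (c : Place K → ℝ) : Div K :=
  open Classical in if h : (Function.support c).Finite then Finsupp.ofSupportFinite c h else 0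

/-- Integral divisors. -/
def IsInt {K : Type} [Field K] (D : Div K) : Prop := ∀ P, ∃ k : ℤ, D P = k

/-- Rational divisors. -/
def IsRat {K : Type} [Field K] (D : Div K) : Prop := ∀ P, ∃ q : ℚ, D P = q

theorem gen_le_of {W : Type} [TopologicalSpace W] {s t : Set W} (h : s ⊆ t) : gen s ≤ gen t :=
  fun _ ⟨U, h1, h2, h3⟩ => ⟨U, h1, h.trans h2, h3⟩

theorem gen_near {W : Type} [TopologicalSpace W] {x : W} {p : W → Prop}
    (h : ∀ᶠ y in gen {x}, p y) : ∀ᶠ y in 𝓝 x, ∀ᶠ z in gen {y}, p z := by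
  obtain ⟨U, h1, h2, h3⟩ := h
  filter_upwards [h1.mem_nhds (h2 rfl)] with y hy using ⟨U, h1, by simpa using hy, h3⟩

theorem gen_of_nhds {W : Type} [TopologicalSpace W] {x : W} {p : W → Prop}
    (h : ∀ᶠ y in 𝓝 x, p y) : ∀ᶠ y in gen {x}, p y :=
  ⟨interior {y | p y}, isOpen_interior, by simpa using mem_interior_iff_mem_nhds.2 h,
    subset_closure⟩

theorem trans_an {n : ℕ} {W : Type} [TopologicalSpace W] [ChartedSpace (Cm n) W]
    [IsManifold 𝓘(ℂ, Cm n) ω W] {e e' : Chart n W} {y : W} (h : At e y) (h' : At e' y) :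
    AnalyticAt ℂ (fun z => e (e'.symm z)) (e' y) := by
  have k := ((contDiffGroupoid ω 𝓘(ℂ, Cm n)).compatible h'.1 h.1)
  rw [contDiffGroupoid, mem_groupoid_of_pregroupoid] at k
  have k1 : ContDiffOn ℂ ω (fun z => e (e'.symm z)) (e'.symm ≫ₕ e).source := by
    simpa [contDiffPregroupoid, Function.comp_def] using k.1
  refine (k1.contDiffAt ((e'.symm ≫ₕ e).open_source.mem_nhds ?_)).analyticAt
  simp [e'.map_source h'.2, e'.left_inv h'.2, h.2]

theorem Hol.of_chart {n : ℕ} {W : Type} [TopologicalSpace W] [ChartedSpace (Cm n) W]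
    [IsManifold 𝓘(ℂ, Cm n) ω W] {a : W → ℂ} {y : W} {e : Chart n W} (he : At e y)
    (h : AnalyticAt ℂ (fun z => a (e.symm z)) (e y)) : Hol n a y := fun e' he' => by
  have k := trans_an he he'
  have h1 : AnalyticAt ℂ (fun z => a (e.symm z)) (e (e'.symm (e' y))) := by
    rwa [e'.left_inv he'.2]
  refine (h1.comp' (f := fun z => e (e'.symm z)) k).congr ?_
  have c := e'.continuousAt_symm (e'.map_source he'.2)
  rw [ContinuousAt, e'.left_inv he'.2] at c
  filter_upwards [c.eventually (e.open_source.mem_nhds he.2)] with z hz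
  simp [e.left_inv hz]

theorem Hol.near {n : ℕ} {W : Type} [TopologicalSpace W] [ChartedSpace (Cm n) W]
    [IsManifold 𝓘(ℂ, Cm n) ω W] {a : W → ℂ} {x : W} (h : Hol n a x) : ∀ᶠ y in 𝓝 x, Hol n a y := by
  have he : At (chartAt (Cm n) x) x := ⟨chart_mem_atlas _ _, mem_chart_source _ _⟩
  filter_upwards [((chartAt (Cm n) x).continuousAt he.2).eventually
    (h _ he).eventually_analyticAt, (chartAt (Cm n) x).open_source.mem_nhds he.2] with y h1 h2
    using Hol.of_chart ⟨he.1, h2⟩ h1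

theorem Hol.congr {n : ℕ} {W : Type} [TopologicalSpace W] [ChartedSpace (Cm n) W] {a b : W → ℂ}
    {x : W} (h : Hol n a x) (e : ∀ᶠ y in 𝓝 x, a y = b y) : Hol n b x := fun c hc =>
  (h c hc).congr (by
    have := c.continuousAt_symm (c.map_source hc.2)
    rw [ContinuousAt, c.left_inv hc.2] at this
    exact this.eventually e)

namespace Mdl

variable {n N : ℕ} {K : Type} [Field K] [Algebra ℂ K] (M : Mdl n N K)

theorem val_eq {x : M.W} (hx : x ∈ M.F) {f : K} {a : M.W → ℂ} (ha : Hol n a x)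
    (h : ∀ᶠ y in gen {x}, M.val f y = a y) : ∀ᶠ y in 𝓝 x, M.val f y = a y := by
  filter_upwards [ha.near, gen_near h, (M.can f).filter_mono (nhds_le_nhdsSet hx)] with y h1 h2 h3
    using h3 a h1 h2

/-- The ring of the functions that are holomorphic at `x`. -/
def O (x : M.F) : Subalgebra ℂ K where
  carrier := {f | Hol n (M.val f) x}
  mul_mem' := fun {f g} hf hg => by
    have h : Hol n (fun y => M.val f y * M.val g y) x := fun e he => (hf e he).mul (hg e he)
    exact h.congr ((M.val_eq x.2 h ((M.val_mul f g).filter_mono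
      (gen_le_of (by simp)))).mono fun _ => Eq.symm)
  add_mem' := fun {f g} hf hg => by
    have h : Hol n (fun y => M.val f y + M.val g y) x := fun e he => (hf e he).add (hg e he)
    exact h.congr ((M.val_eq x.2 h ((M.val_add f g).filter_mono
      (gen_le_of (by simp)))).mono fun _ => Eq.symm)
  algebraMap_mem' c := fun e _ => by simpa [M.val_const] using analyticAt_const

/-- The ring of the functions that are holomorphic along `F`. -/
def O₀ : Subalgebra ℂ K := ⨅ x, M.O x

/-- `P` is a prime divisor through `x` with local equation `t`. -/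
structure Gn (x : M.F) (P : Place K) (t : K) : Prop where
  mem : t ∈ M.O x
  van : M.val t x = 0
  ord : P.ord t = 1
  le : ∀ f ∈ M.O x, f ∈ P.ring
  dvd : ∀ f ∈ M.O x, 0 < P.ord f → f / t ∈ M.O x
  loc : ∀ f ∈ P.ring, ∃ b ∈ M.O x, b ≠ 0 ∧ P.ord b = 0 ∧ b * f ∈ M.O x

/-- `P` is a prime divisor through `x`. -/
def On (x : M.F) (P : Place K) : Prop := ∃ t, M.Gn x P t

/-- `P` is a prime divisor. -/
def Pr (P : Place K) : Prop := ∃ x, M.On x P

/-- `D` is a divisor on the model. -/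
def Dv (D : Div K) : Prop := ∀ P ∈ D.support, M.Pr P

open Classical in
/-- A local equation of `P` at `x`. -/
def eqn (x : M.F) (P : Place K) : K := if h : M.On x P then h.choose else 1

open Classical in
/-- The principal divisor. -/
def div (f : K) : Div K := mkDiv fun P => if M.Pr P then (P.ord f : ℝ) else 0

open Classical in
/-- The trace of a divisor on the model (push forward). -/
def tr (D : Div K) : Div K := D.filter M.Pr

/-- The sections of a divisor. -/
def H0 (D : Div K) : Submodule M.O₀ K where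
  carrier := {f | f = 0 ∨ ∀ P, M.Pr P → 0 ≤ (P.ord f : ℝ) + D P}
  zero_mem' := Or.inl rfl
  add_mem' := fun {f g} hf hg => by
    by_cases f0 : f = 0
    · simpa [f0] using hg
    by_cases g0 : g = 0
    · simpa [g0] using hf
    refine or_iff_not_imp_left.2 fun h P hP => ?_
    have a := P297Z.Pl.min_ord_le_add P f0 g0 h
    have b := hf.resolve_left f0 P hP
    have c := hg.resolve_left g0 P hP
    rcases min_le_iff.1 a with k | k <;> have k' := Int.cast_le (R := ℝ).2 k <;> linarith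
  smul_mem' := fun a f hf => by
    refine or_iff_not_imp_left.2 fun h P hP => ?_
    have h' : (a : K) * f ≠ 0 := h
    obtain ⟨x, t, ht⟩ := id hP
    have b := hf.resolve_left (right_ne_zero_of_mul h') P hP
    have c := Int.cast_le (R := ℝ).2
      (P297Z.Pl.ord_nonneg_of_mem P (ht.le _ (Algebra.mem_iInf.1 a.2 x)))
    change 0 ≤ (P.ord ((a : K) * f) : ℝ) + D P
    rw [P297Z.Pl.ord_mul P (left_ne_zero_of_mul h') (right_ne_zero_of_mul h')]
    push_cast at c ⊢
    linarith

/-- `t` is a system of coordinates at `x`. -/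
def Coord (x : M.F) (t : Fin n → K) : Prop :=
  (∀ i, t i ∈ M.O x ∧ M.val (t i) x = 0) ∧
    ∀ e : Chart n M.W, At e x → jd (fun i => M.val (t i)) e x ≠ 0

/-- Simple normal crossings. -/
def Snc (T : Set (Place K)) : Prop :=
  (∀ P ∈ T, M.Pr P) ∧ ∀ x, ∃ t, M.Coord x t ∧ ∀ P ∈ T, M.On x P → ∃ i, M.Gn x P (t i)

/-- `dg = j dt` -/
def Jac (g t : Fin n → K) (j : K) : Prop :=
  ∀ x ∈ M.F, ∀ e : Chart n M.W, At e x → ∀ᶠ y in gen {x},
    jd (fun i => M.val (g i)) e y = M.val j y * jd (fun i => M.val (t i)) e y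

/-- `κ` is the divisor of the form `dg`. -/
def Can (g : Fin n → K) (κ : Div K) : Prop :=
  M.Dv κ ∧ ∀ x t j, M.Coord x t → M.Jac g t j → j ≠ 0 ∧ ∀ P, M.On x P → κ P = P.ord j

/-- The logarithm of the square of the modulus of a local equation of `D` at `x`. -/
def lg (x : M.F) (D : Div K) (y : M.W) : ℝ :=
  D.sum fun P c => c * Real.log (‖M.val (M.eqn x P) y‖ ^ 2)

/-- `D` has a metric of positive curvature; `G` is the logarithm of the norm of the canonical
section. -/
def Amp (D : Div K) : Prop :=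
  ∃ G : M.W → ℝ, ∀ x : M.F, ∃ φ : M.W → ℝ, (∀ᶠ y in 𝓝 (x : M.W), Spsh n φ y) ∧
    ∀ᶠ y in gen {(x : M.W)}, G y = M.lg x D y - φ y

/-- Nef divisors. -/
def Nef (D : Div K) : Prop := ∀ A, M.Amp A → M.Amp (D + A)

/-- The integral divisor `D` is generated by its sections at `x`. -/
def Free (D : Div K) (x : M.F) : Prop :=
  ∃ f ∈ M.H0 D, f ≠ 0 ∧ ∀ P, M.On x P → (P.ord f : ℝ) + D P = 0

/-- The place `Q` has its centre through `x`. -/
def Ct (x : M.F) (Q : Place K) : Prop := ∀ f ∈ M.O x, f ∈ Q.ring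

/-- The order of `D` at a place whose centre passes through `x`. -/
def ordAt (x : M.F) (Q : Place K) (D : Div K) : ℝ := D.sum fun P c => c * Q.ord (M.eqn x P)

open Classical in
/-- The order of `D` at a place with a centre on the model. -/
def ordD (Q : Place K) (D : Div K) : ℝ := if h : ∃ x, M.Ct x Q then M.ordAt h.choose Q D else 0

open Classical in
/-- The pull back of the divisor `D` of `M` to another model. -/
def pull {N' : ℕ} (M' : Mdl n N' K) (D : Div K) : Div K :=
  mkDiv fun Q => if M'.Pr Q then M.ordD Q D else 0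

end Mdl

variable {n N : ℕ} {K : Type} [Field K] [Algebra ℂ K]

/-- A modification `M' → M`. -/
structure Mod (M' M : Mdl n N K) where
  /-- the map -/
  g : M'.W → M.W
  cont : ∀ y ∈ M'.F, ContinuousAt g y
  hol : ∀ y ∈ M'.F, ∀ a, Hol n a (g y) → Hol n (fun z => a (g z)) y
  img : g '' M'.F = M.F
  dom : ∀ y ∈ M'.F, Tendsto g (gen {y}) (gen {g y})
  base : ∀ᶠ y in 𝓝ˢ M'.F, M'.π y = M.π (g y)
  val : ∀ f, ∀ᶠ y in gen M'.F, M'.val f y = M.val f (g y)

/-- The smooth prime divisor `P` of `M` as a model `S`. -/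
structure Sub {L : Type} [Field L] [Algebra ℂ L] (S : Mdl n N L) (M : Mdl (n + 1) N K)
    (P : Place K) where
  /-- the embedding -/
  ι : S.W → M.W
  cont : Continuous ι
  inj : Function.Injective ι
  hol : ∀ y ∈ S.F, ∀ a, Hol (n + 1) a (ι y) → Hol n (fun z => a (ι z)) y
  mem : ∀ y ∈ S.F, ι y ∈ M.F
  on : ∀ x : M.F, M.On x P ↔ ∃ y ∈ S.F, ι y = x
  base : ∀ᶠ y in 𝓝ˢ S.F, S.π y = M.π (ι y)
  /-- the residue map (zero outside the ring of `P`) -/
  res : K → L
  res_add : ∀ f ∈ P.ring, ∀ g ∈ P.ring, res (f + g) = res f + res g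
  res_mul : ∀ f ∈ P.ring, ∀ g ∈ P.ring, res (f * g) = res f * res g
  res_const : ∀ c, res (algebraMap ℂ K c) = algebraMap ℂ L c
  res_zero : ∀ f ∈ P.ring, res f = 0 ↔ f = 0 ∨ 0 < P.ord f
  res_surj : ∀ u, ∃ f ∈ P.ring, res f = u
  val : ∀ (y : S.F), ∀ f ∈ M.O ⟨ι y, mem y y.2⟩, ∀ᶠ z in 𝓝 (y : S.W), S.val (res f) z = M.val f (ι z)
  img : ∀ (y : S.F) t, M.Gn ⟨ι y, mem y y.2⟩ P t → ∀ V ∈ 𝓝 (y : S.W),
    ∀ᶠ z in 𝓝 (ι y), M.val t z = 0 → z ∈ ι '' V
  coord : ∀ (y : S.F) (t : Fin (n + 1) → K) (i : Fin (n + 1)), M.Coord ⟨ι y, mem y y.2⟩ t →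
    M.Gn ⟨ι y, mem y y.2⟩ P (t i) → S.Coord y fun j => res (t (i.succAbove j))

open Classical in
/-- The restriction of a divisor whose support does not contain `P`. -/
def Sub.rs {L : Type} [Field L] [Algebra ℂ L] {S : Mdl n N L} {M : Mdl (n + 1) N K} {P : Place K}
    (s : Sub S M P) (D : Div K) : Div L :=
  mkDiv fun Q => if h : S.Pr Q then
    D.sum fun R c => c * Q.ord (s.res (M.eqn ⟨s.ι h.choose, s.mem _ h.choose.2⟩ R)) else 0

end Vale.Agent.P277Z
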