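import Vale.Agent.P277Z.Spec

/-!
# P277Z: germs and line bundles near the fibre. Statements.
-/

set_option linter.all false

open scoped Manifold ContDiff Topology
open Set Filter Asymptotics
open Vale.Agent.P272.K (Cm Chart At cHess)
open Vale.Agent.P297 (Place)
open Vale.Agent.P285.H281.FD (Bd)

noncomputable section

namespace Vale.Agent.P277Z

section germ

variable (n : ℕ) {W : Type} [TopologicalSpace W] [ChartedSpace (Cm n) W]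

/-- The germ of `a` at `x` is not zero. -/
def Nz (a : W → ℂ) (x : W) : Prop := ¬ ∀ᶠ y in 𝓝 x, a y = 0

/-- `a` divides `b` at `x`. -/
def Dvd (a b : W → ℂ) (x : W) : Prop := ∃ c, Hol n c x ∧ ∀ᶠ y in 𝓝 x, b y = c y * a y

/-- `u` and `v` are coprime at `x`. -/
def Cop (u v : W → ℂ) (x : W) : Prop :=
  ∀ b, Hol n b x → Dvd n v (fun y => b y * u y) x → Dvd n v b x

/-- `r` generates the ideal of its zero set at `x`. -/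
def Red (r : W → ℂ) (x : W) : Prop :=
  ∀ a, Hol n a x → (∀ᶠ y in 𝓝 x, r y = 0 → a y = 0) → Dvd n r a x

/-- The algebra of the germs at `x`. -/
structure Luf (x : W) : Prop where
  nz : ∀ a, Hol n a x → Nz a x → ∀ᶠ y in gen {x}, a y ≠ 0
  gcd : ∀ u v, Hol n u x → Hol n v x → Nz v x → ∃ d u' v' : W → ℂ, Hol n d x ∧ Hol n u' x ∧
    Hol n v' x ∧ ∀ᶠ y in 𝓝 x, u y = d y * u' y ∧ v y = d y * v' y ∧ Cop n u' v' y
  red : ∀ t, Hol n t x → Nz t x → ∃ (r : W → ℂ) (k : ℕ), Hol n r x ∧ Dvd n r t x ∧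
    Dvd n t (fun y => r y ^ k) x ∧ ∀ᶠ y in 𝓝 x, Red n r y

end germ

/-- **LUF** -/
def LUF : Prop := ∀ (n : ℕ) (W : Type) [TopologicalSpace W] [ChartedSpace (Cm n) W]
  [IsManifold 𝓘(ℂ, Cm n) ω W] (x : W), Luf n x

variable {n N : ℕ}

/-- `L` is a positive line bundle near `F`. -/
def Geo.PosB (G : Geo n N) (L : Bd G.W) : Prop :=
  ∃ ψ : L.ι → G.W → ℝ, G.LB L ∧ (∀ i, ∀ x ∈ L.U i, Spsh n (ψ i) x) ∧
    ∀ i j x, x ∈ L.U i → x ∈ L.U j → ψ i x = ψ j x + Real.log (‖L.g i j x‖ ^ 2)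

theorem Geo.proj_iff (G : Geo n N) : G.Proj ↔ ∃ L, G.PosB L := Iff.rfl

/-- `s` is a section of `L` near `F`. -/
def Geo.Sec (G : Geo n N) (L : Bd G.W) (s : L.ι → G.W → ℂ) : Prop :=
  ∀ᶠ y in 𝓝ˢ G.F, ∀ i, y ∈ L.U i → Hol n (s i) y ∧ ∀ j, y ∈ L.U j → s i y = L.g i j y * s j y

/-- **NBH**: `π` is proper near `F` -/
def NBH : Prop := ∀ (n N : ℕ) (G : Geo n N), ∀ U ∈ 𝓝ˢ G.F, ∃ (O : Set G.W) (r : ℝ), IsOpen O ∧
  G.F ⊆ O ∧ O ⊆ U ∧ 0 < r ∧ (∀ y ∈ O, ∀ i, Hol n (fun y => G.π y i) y) ∧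
  (∀ y ∈ O, ‖G.π y‖ < r ∧ (G.π y = 0 ↔ y ∈ G.F)) ∧
  (∀ K ⊆ Metric.ball (0 : Cm N) r, IsCompact K → IsCompact (O ∩ G.π ⁻¹' K)) ∧
  ∀ V ∈ 𝓝ˢ G.F, ∃ r' : ℝ, 0 < r' ∧ ∀ y ∈ O, ‖G.π y‖ < r' → y ∈ V

/-- **GGF**: global generation -/
def GGF : Prop := ∀ (n N : ℕ) (G : Geo n N) (A L : Bd G.W), G.PosB A → G.LB L →
  ∃ m₀ : ℕ, ∀ m, m₀ ≤ m → ∀ x ∈ G.F, ∃ s, G.Sec (L.mul (A.pow m)) s ∧
    ∀ i, x ∈ (L.mul (A.pow m)).U i → s i x ≠ 0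

/-- **JET**: sections with a given jet at `x` which vanish at `y` -/
def JET : Prop := ∀ (n N : ℕ) (G : Geo n N) (A L : Bd G.W), G.PosB A → G.LB L →
  ∀ x ∈ G.F, ∀ y ∈ G.F, ∀ k : ℕ, ∃ m₀ : ℕ, ∀ m, m₀ ≤ m → ∀ i, x ∈ (L.mul (A.pow m)).U i →
    ∀ a, Hol n a x → ∃ s, G.Sec (L.mul (A.pow m)) s ∧
      (∀ e : Chart n G.W, At e x →
        (fun z => s i (e.symm z) - a (e.symm z)) =o[𝓝 (e x)] fun z => ‖z - e x‖ ^ k) ∧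
      (y ≠ x → ∀ j, y ∈ (L.mul (A.pow m)).U j → s j y = 0)

variable {K : Type} [Field K] [Algebra ℂ K]

/-- `s` is a meromorphic section of `L` with divisor `D`. -/
structure Mdl.Rep (M : Mdl n N K) (L : Bd M.W) (D : Div K) (s : L.ι → M.W → ℂ) : Prop where
  lb : M.LB L
  chg : ∀ i j y, y ∈ L.U i → y ∈ L.U j → s i y = L.g i j y * s j y
  loc : ∀ (x : M.F) i, (x : M.W) ∈ L.U i → ∃ (t : K) (u : M.W → ℂ), t ≠ 0 ∧
    (∀ P, M.On x P → D P = P.ord t) ∧ Hol n u x ∧ u x ≠ 0 ∧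
    ∀ᶠ y in gen {(x : M.W)}, s i y = u y * M.val t y

/-- `σ` is the section `f s`. -/
def Mdl.Mul (M : Mdl n N K) {L : Bd M.W} (s : L.ι → M.W → ℂ) (f : K) (σ : L.ι → M.W → ℂ) : Prop :=
  ∀ (x : M.F) i, (x : M.W) ∈ L.U i → ∀ᶠ y in gen {(x : M.W)}, σ i y = M.val f y * s i y

/-- Divisors and line bundles. -/
structure Lbd (M : Mdl n N K) : Prop where
  ex : ∀ D, IsInt D → ∃ L s, M.Rep L D s
  sec : ∀ L D s f, M.Rep L D s → f ∈ M.H0 D → ∃ σ, M.Sec L σ ∧ M.Mul s f σ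
  fn : ∀ L D s σ, M.Rep L D s → M.Sec L σ → ∃ f ∈ M.H0 D, M.Mul s f σ
  nz : ∀ L D s f σ (x : M.F) i, M.Rep L D s → M.Sec L σ → M.Mul s f σ → (x : M.W) ∈ L.U i →
    (σ i x ≠ 0 ↔ f ≠ 0 ∧ ∀ P, M.On x P → (P.ord f : ℝ) + D P = 0)
  mul : ∀ L D s L' D' s', M.Rep L D s → M.Rep L' D' s' →
    M.Rep (L.mul L') (D + D') fun i y => s i.1 y * s' i.2 y
  pow : ∀ L D s (m : ℕ), M.Rep L D s → M.Rep (L.pow m) ((m : ℝ) • D) fun i y => s i y ^ m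
  amp : ∀ L D s, M.Rep L D s → M.PosB L → M.Amp D
  pos : ∀ D, IsInt D → M.Amp D → ∃ L s, M.Rep L D s ∧ M.PosB L
  can : ∀ g κ, M.Can g κ → M.Rep (Bd.can n M.W) κ fun e y => jd (fun i => M.val (g i)) e y

/-- **LBD** -/
def LBD (n : ℕ) : Prop := ForM n fun _ _ _ _ M => Lbd M

end Vale.Agent.P277Z
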