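import Vale.Agent.P277Z.Defs

/-!
# P277Z: the local blocks. Statements.
-/

set_option linter.all false

open scoped Manifold ContDiff Topology
open Set Filter
open Vale.Agent.P272.K (Cm Chart At cHess)
open Vale.Agent.P297 (Place)
open Vale.Agent.P285.H281.FD (Bd)

noncomputable section

namespace Vale.Agent.P277Z

/-- A statement for all projective models of dimension `n`. -/
def ForM (n : ℕ) (P : ∀ (N : ℕ) (K : Type) [Field K] [Algebra ℂ K], Mdl n N K → Prop) : Prop :=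
  ∀ (N : ℕ) (K : Type) [Field K] [Algebra ℂ K] (M : Mdl n N K), M.Proj → P N K M

variable {n N : ℕ} {K : Type} [Field K] [Algebra ℂ K]

/-- The local rings are factorial, the prime divisors are locally finite. -/
structure Loc (M : Mdl n N K) : Prop where
  frac : ∀ x f, ∃ b ∈ M.O x, b ≠ 0 ∧ b * f ∈ M.O x
  inv : ∀ x, ∀ f ∈ M.O x, M.val f x ≠ 0 → f⁻¹ ∈ M.O x
  mem : ∀ x f, (∀ P, M.On x P → 0 ≤ P.ord f) → f ∈ M.O x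
  van : ∀ x, ∀ f ∈ M.O x, f ≠ 0 → M.val f x = 0 → ∃ P, M.On x P ∧ 0 < P.ord f
  other : ∀ x P Q t, M.Gn x P t → M.On x Q → Q ≠ P → Q.ord t = 0
  fin : ∀ f, {P | M.Pr P ∧ P.ord f ≠ 0}.Finite
  near : ∀ x P, ∀ᶠ y in 𝓝 x, M.On y P → M.On x P
  near_gn : ∀ x P t, M.Gn x P t → ∀ᶠ y in 𝓝 x, (M.On y P → M.Gn y P t) ∧
    (¬ M.On y P → M.val t y ≠ 0)
  red : ∀ x P t, M.Gn x P t → ∀ a : M.W → ℂ, Hol n a x →
    (∀ᶠ y in 𝓝 (x : M.W), M.val t y = 0 → a y = 0) → ∃ b : M.W → ℂ, Hol n b x ∧ ∀ᶠ y in 𝓝 (x : M.W), a y = M.val t y * b y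
  coord : ∀ x, ∃ t, M.Coord x t
  sep : ∀ x y : M.F, x ≠ y → ∃ f ∈ M.O x, f ∈ M.O y ∧ M.val f x ≠ M.val f y
  ctr : ∀ x y Q, M.Ct x Q → M.Ct y Q → ∀ f ∈ M.O x, ∃ b ∈ M.O y, b ≠ 0 ∧ Q.ord b = 0 ∧
    b * f ∈ M.O y
  jac : ∀ x t g, M.Coord x t → ∃ j, M.Jac g t j
  can : ∀ x t g j, M.Coord x t → M.Jac g t j → j ≠ 0 → ∃ κ, M.Can g κ

/-- Ample divisors. -/
structure Pos (M : Mdl n N K) : Prop where
  ex : ∃ A, M.Dv A ∧ IsInt A ∧ M.Amp A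
  add : ∀ A B, M.Amp A → M.Amp B → M.Amp (A + B)
  smul : ∀ A (c : ℝ), 0 < c → M.Amp A → M.Amp (c • A)
  tr : ∀ A, M.Amp (M.tr A) ↔ M.Amp A
  div : ∀ A f, f ≠ 0 → M.Amp A → M.Amp (A + M.div f)
  opn : ∀ A D, M.Amp A → ∃ ε : ℝ, 0 < ε ∧ M.Amp (A + ε • D)
  free : ∀ D, IsInt D → (∀ x, M.Free D x) → M.Nef D
  gg : ∀ A D, M.Amp A → IsInt A → IsInt D → ∃ m₀ : ℕ, ∀ m : ℕ, m₀ ≤ m → ∀ x,
    M.Free (D + (m : ℝ) • A) x

/-- Finiteness. -/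
structure Coh (M : Mdl n N K) : Prop where
  noeth : IsNoetherianRing M.O₀
  fin : ∀ D, Module.Finite M.O₀ (M.H0 D)
  base : ∃ T : Finset K, (∀ t ∈ T, t ∈ M.O₀) ∧ ∀ f ∈ M.O₀, ∃ c : K → Cm N → ℂ,
    (∀ t, AnalyticAt ℂ (c t) 0) ∧ ∀ᶠ y in 𝓝ˢ M.F, M.val f y = ∑ t ∈ T, c t (M.π y) * M.val t y

/-- **MK**: the field exists -/
def MK : Prop := ∀ (n N : ℕ) (G : Geo n N),
  ∃ (K : Type) (_ : Field K) (_ : Algebra ℂ K) (M : Mdl n N K), M.toGeo = G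

/-- **LOC** -/
def LOC (n : ℕ) : Prop := ForM n fun _ _ _ _ M => Loc M

/-- **POS** -/
def POS (n : ℕ) : Prop := ForM n fun _ _ _ _ M => Pos M

/-- **COH** -/
def COH (n : ℕ) : Prop := ForM n fun _ _ _ _ M => Coh M

/-- **SEC**: line bundles are divisors; `s` is a meromorphic section with divisor `D` -/
def SEC (n : ℕ) : Prop := ForM n fun _ _ _ _ M => ∀ L : Bd M.W, M.LB L →
  ∃ (D : Div _) (s : L.ι → M.W → ℂ), M.Dv D ∧ IsInt D ∧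
    (∀ i j y, y ∈ L.U i → y ∈ L.U j → s i y = L.g i j y * s j y) ∧
    ∀ (x : M.F) i, (x : M.W) ∈ L.U i → ∃ (t : _) (u : M.W → ℂ), t ≠ 0 ∧
      (∀ P, M.On x P → D P = P.ord t) ∧ Hol n u x ∧ u x ≠ 0 ∧
      ∀ᶠ y in gen {(x : M.W)}, s i y = u y * M.val t y

/-- **SUB**: smooth prime divisors are models -/
def SUB (n : ℕ) : Prop := ForM (n + 1) fun N _ _ _ M => ∀ P, M.Snc {P} →
  ∃ (L : Type) (_ : Field L) (_ : Algebra ℂ L) (S : Mdl n N L), S.Proj ∧ Nonempty (Sub S M P)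

/-- The exceptional prime divisors. -/
def Exc {N' : ℕ} (M' : Mdl n N' K) (M : Mdl n N K) : Set (Place K) := {Q | M'.Pr Q ∧ ¬ M.Pr Q}

/-- The fractional ideal generated by `s` is invertible. -/
def Prin (M : Mdl n N K) (s : Finset K) : Prop := ∀ x, ∃ f ∈ s, f ≠ 0 ∧ ∀ h ∈ s, h / f ∈ M.O x

/-- `M` is good at `x` for the data `T`, `s`. -/
def GoodAt {k : ℕ} (M : Mdl n N K) (T : Set (Place K)) (s : Fin k → Finset K) (x : M.F) : Prop :=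
  (∀ j, ∃ f ∈ s j, f ≠ 0 ∧ ∀ h ∈ s j, h / f ∈ M.O x) ∧ ∃ t, M.Coord x t ∧
    ∀ P, M.On x P → (P ∈ T ∨ ∃ j, (∀ h ∈ s j, h ≠ 0 → 0 < P.ord h) ∨ ∃ h ∈ s j, P.ord h < 0) →
      ∃ i, M.Gn x P (t i)

/-- **HIRL**: log resolutions of models -/
def HIRL (n : ℕ) : Prop := ForM n fun N K _ _ M => ∀ (T : Set (Place K)) (k : ℕ)
  (s : Fin k → Finset K), T.Finite → (∀ j, ∃ f ∈ s j, f ≠ 0) →
  ∃ M' : Mdl n N K, Nonempty (Mod M' M) ∧ M'.Proj ∧ ∀ y, GoodAt M' (T ∪ Exc M' M) s y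

/-- Modifications. -/
structure Bir (M' M : Mdl n N K) (m : Mod M' M) : Prop where
  le : ∀ (y : M'.F) (x : M.F), m.g y = x → M.O x ≤ M'.O y ∧
    ∀ f ∈ M.O x, ∀ᶠ z in 𝓝 (y : M'.W), M'.val f z = M.val f (m.g z)
  O₀ : M'.O₀ = M.O₀
  fin : (Exc M' M).Finite
  pr : ∀ P, M.Pr P → M'.Pr P
  on : ∀ (y : M'.F) (x : M.F) P, m.g y = x → M'.On y P → M.Pr P → M.On x P
  pull : ∀ (y : M'.F) (x : M.F) Q D, m.g y = x → M'.On y Q → M.pull M' D Q = M.ordAt x Q D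
  sec : ∀ D E f, (E.support : Set (Place K)) ⊆ Exc M' M → 0 ≤ E →
    (f ∈ M'.H0 (M.pull M' D + E) ↔ f ∈ M.H0 D)
  nef : ∀ A, M.Nef A → M'.Nef (M.pull M' A)
  can : ∀ g κ κ', M.Can g κ → M'.Can g κ' → 0 ≤ κ' - M.pull M' κ ∧
    ((κ' - M.pull M' κ).support : Set (Place K)) = Exc M' M
  neg : ∀ A E, M'.Amp (M.pull M' A - E) → (E.support : Set (Place K)) ⊆ Exc M' M →
    ∀ Q ∈ Exc M' M, 0 < E Q
  amp : ∃ H : Div K, (H.support : Set (Place K)) = Exc M' M ∧ IsInt H ∧ 0 ≤ H ∧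
    ∀ A, M.Amp A → ∃ ε : ℝ, 0 < ε ∧ M'.Amp (M.pull M' A - ε • H)

/-- **BIR** -/
def BIR (n : ℕ) : Prop := ForM n fun N K _ _ M => ∀ (M' : Mdl n N K) (m : Mod M' M), M'.Proj →
  Bir M' M m

/-- Restriction to a smooth prime divisor. -/
structure Rst {L : Type} [Field L] [Algebra ℂ L] {S : Mdl n N L} {M : Mdl (n + 1) N K}
    {P : Place K} (s : Sub S M P) : Prop where
  rs : ∀ (y : S.F) Q D, D P = 0 → S.On y Q →
    s.rs D Q = D.sum fun R c => c * Q.ord (s.res (M.eqn ⟨s.ι y, s.mem y y.2⟩ R))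
  div : ∀ f, f ≠ 0 → P.ord f = 0 → s.rs (M.div f) = S.div (s.res f)
  sec : ∀ D, D P = 0 → ∀ f ∈ M.H0 D, s.res f ∈ S.H0 (s.rs D)
  amp : ∀ A, A P = 0 → M.Amp A → S.Amp (s.rs A)
  snc : ∀ T, P ∈ T → M.Snc T → S.Snc {Q | ∃ R ∈ T, R ≠ P ∧ s.rs (Finsupp.single R 1) Q ≠ 0} ∧
    ∀ R ∈ T, R ≠ P → ∀ Q, s.rs (Finsupp.single R 1) Q = 0 ∨ s.rs (Finsupp.single R 1) Q = 1
  adj : ∀ (g : Fin (n + 1) → K) κ κ', P.ord (g 0) = 1 → (∀ i : Fin n, g i.succ ∈ P.ring) →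
    M.Can g κ → S.Can (fun i => s.res (g i.succ)) κ' →
    κ P = 0 ∧ κ' = s.rs (κ + Finsupp.single P 1 - M.div (g 0))
  mod : ∀ (M' : Mdl (n + 1) N K) (m : Mod M' M), M'.Proj → M'.Snc {P} →
    ∃ (S' : Mdl n N L) (s' : Sub S' M' P) (_ : Mod S' S), S'.Proj ∧ s'.res = s.res ∧
      ∀ D, D P = 0 → s'.rs (M.pull M' D) = S.pull S' (s.rs D)

/-- **RST** -/
def RST (n : ℕ) : Prop := ForM (n + 1) fun N _ _ _ M => ∀ (L : Type) [Field L] [Algebra ℂ L]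
  (S : Mdl n N L) P (s : Sub S M P), M.Snc {P} → Rst s

/-- **BERT**: the theorem of Bertini -/
def BERT (n : ℕ) : Prop := ForM n fun _ K _ _ M => ∀ (T : Set (Place K)) (D : Div K)
  (s : Finset K), T.Finite → M.Snc T → M.Dv D → IsInt D → (∀ f ∈ s, f ∈ M.H0 D) →
  (∀ x, ∃ f ∈ s, f ≠ 0 ∧ ∀ P, M.On x P → (P.ord f : ℝ) + D P = 0) →
  ∀ᵐ c : s → ℂ, ∃ f : K, f = ∑ a : s, algebraMap ℂ K (c a) * a ∧ f ≠ 0 ∧
    (∀ P, (M.div f + D) P ≤ 1) ∧ (∀ P ∈ T, (M.div f + D) P = 0) ∧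
    M.Snc (T ∪ (M.div f + D).support)

/-- **FG**: finite generation of adjoint rings (Cascini and Lazic, Theorem A) -/
def FG (n : ℕ) : Prop := ForM n fun _ K _ _ M => ∀ (g : Fin n → K) (κ A : Div K)
  (T : Set (Place K)) (k : ℕ) (B : Fin k → Div K), M.Can g κ → M.Amp A → M.Dv A → IsRat A →
  T.Finite → M.Snc T → (∀ i, ((B i).support : Set (Place K)) ⊆ T ∧ IsRat (B i) ∧
    ∀ P, 0 ≤ B i P ∧ B i P < 1) →
  P277Z.Gr.FG (fun m : Fin k → ℕ => M.H0 (∑ i, (m i : ℝ) • (κ + A + B i))) univ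

end Vale.Agent.P277Z
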