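import Vale.Agent.P277Z.Sub.All
import Vale.Agent.P277Z.Lo.All
import Vale.Agent.P277Z.Ps.Jet
import Vale.Agent.P277Z.Ps.Pos
import Vale.Agent.P277Z.Rst.All
import Vale.Agent.P277Z.Bert.Main
import Vale.Agent.P277Z.Hl.Main
import Vale.Agent.P277Z.Hl.Posb
import Vale.Agent.P277Z.Hl.Og
import Vale.Agent.P277Z.Hl.Desc
import Vale.Agent.P277Z.Hl.Surj
import Vale.Agent.P277Z.Hir.All
import Vale.Agent.P277Z.Bl2.Main
import Vale.Agent.P277Z.Lift.ExtK
import Vale.Agent.P277Z.Lift.ExtF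
import Vale.Agent.P277Z.Lift.MetK
import Vale.Agent.P277Z.Lift.E34

/-!
# P277Z: the local blocks without hypotheses
-/

namespace Vale.Agent.P277Z.Tool

theorem jet : JET := Ps.jet_of Van.jet

theorem ggf : GGF := Ps.ggf_of Van.gg

theorem loc (n : ℕ) : LOC n := P277Z.loc jet n

theorem cop (n : ℕ) : COP n := P277Z.cop jet n

theorem lbd (n : ℕ) : LBD n := Lb.lbd_of (loc n)

theorem sec (n : ℕ) : SEC n := Lb.sec_of ggf (loc n)

theorem pos (n : ℕ) : POS n := Ps.pos_of (loc n) (sec n) (lbd n) ggf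

theorem sub (n : ℕ) : SUB n := sub_of' (loc _) (loc n) (pos n)

theorem bir (n : ℕ) : BIR n := bir_of (loc n) (pos n) (cop n)

theorem rst (n : ℕ) : RST n := rst_of (loc _) (loc n) (pos _) (cop _) (sub n)

theorem bert (n : ℕ) : BERT n := Bert.bert_of (loc n)

theorem hirl (n : ℕ) : HIRL n :=
  Hl.hirl_of Hir.stMain Hl.posb ggf (loc n) (cop n) (sec n) (lbd n)

theorem surj : Hl.SURJ := Hl.surj_of ggf Hl.den Hl.desc Hl.top

theorem bl2 (n : ℕ) : FI.BL2 n := Bl2.bl2 (loc n) (lbd n) (pos n) surj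

theorem extk (n : ℕ) : Lift.EXTK n :=
  Lift.extk_of Lift.extf (Lift.metK _) (loc _) (loc n) (pos _) (rst n)

theorem ext34 (n : ℕ) : FI.EXT34 n := Lift.ext34 loc pos rst (extk n)

end Vale.Agent.P277Z.Tool
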